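import Vale.Agent.P299.H266.GradGlobal
import Vale.Agent.P299.H738.Boch

/-!
# P299, D2-GRAD: final statements
-/

namespace Vale.Agent.P299.H266

open Vale.Agent.P299.D2

theorem localGrad : LocalGradStatement := localGradStatement Vale.Agent.P299.H738.boch

theorem grad : GradStatement := gradStatement Vale.Agent.P299.H738.boch

end Vale.Agent.P299.H266
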