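import Vale.Agent.P299.H723.D2.Iface
import Vale.Agent.P299.H956.D1.Imm
import Vale.Agent.P272.K.AMP.Calc
import Mathlib.Topology.Covering.Basic

/-!
# P299: local sections of a covering, Laplacian and gradient in the charts of the base
-/

open scoped Manifold ContDiff ComplexOrder Topology
open Vale.Agent.P272.K Vale.Agent.P272.K.AMP Vale.Agent.P299.D Metric Filter Set
open Vale.Agent.P299.H956 (jacF_eq jacF_id jacF_comp jacF_congr pullM_eq rep_hol jmR jmR_congr
  cHess_compR dz_compR dzb_compR exists_localInverse)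

set_option linter.all false

noncomputable section

namespace Vale.Agent.P299.H266

open Vale.Agent.P299.D2

/-- sections of a covering map over evenly covered open sets -/
lemma exists_section {M X : Type*} [TopologicalSpace M] [TopologicalSpace X] {π : M → X}
    (hπ : IsCoveringMap π) (x : X) :
    ∃ U : Set X, IsOpen U ∧ x ∈ U ∧ ∀ m, π m ∈ U →
      ∃ s : X → M, ContinuousOn s U ∧ (∀ y ∈ U, π (s y) = y) ∧ s (π m) = m := by
  obtain ⟨hd, U, hxU, hU, hfU, H, hH⟩ := hπ x
  refine ⟨U, hU, hxU, fun m hm => ?_⟩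
  classical
  set i := (H ⟨m, hm⟩).2 with hi
  refine ⟨fun y => if hy : y ∈ U then (H.symm (⟨y, hy⟩, i) : M) else m, ?_, ?_, ?_⟩
  · rw [continuousOn_iff_continuous_domRestrict]
    have h1 : Continuous fun y : U => ((H.symm (y, i) : π ⁻¹' U) : M) := by
      fun_prop
    refine h1.congr fun y => ?_
    simp [Set.domRestrict, y.2]
  · intro y hy
    simp only [hy, dif_pos]
    rw [← hH]
    simp
  · simp only [hm, dif_pos]
    have h1 : H ⟨m, hm⟩ = (⟨π m, hm⟩, i) := by
      refine Prod.ext (Subtype.ext (hH _)) rfl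
    rw [← h1, H.symm_apply_apply]

section
variable {n : ℕ} {M X : Type*} [TopologicalSpace M] [TopologicalSpace X]
  [ChartedSpace (Cm n) M] [ChartedSpace (Cm n) X]
  [IsManifold 𝓘(ℂ, Cm n) ω M] [IsManifold 𝓘(ℂ, Cm n) ω X] {π : M → X} {w : FormM n X}
  {e : Chart n X} {y : X} {s : X → M} {u v : M → ℝ}

/-- a continuous local section of a local biholomorphism is holomorphic -/
lemma section_hol (hloc : IsLocalDiffeomorph 𝓘(ℂ, Cm n) 𝓘(ℂ, Cm n) ω π)
    (hs : ContinuousAt s y) (hπs : ∀ᶠ x in 𝓝 y, π (s x) = x) :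
    ContMDiffAt 𝓘(ℂ, Cm n) 𝓘(ℂ, Cm n) ω s y := by
  obtain ⟨g, hg1, hg2, hg3, hg4⟩ := exists_localInverse hloc (s y)
  have hy : π (s y) = y := hπs.self_of_nhds
  rw [hy] at hg1 hg2 hg4
  refine hg2.congr_of_eventuallyEq ?_
  have h1 : ∀ᶠ x in 𝓝 y, g (π (s x)) = s x := hs.eventually hg3
  filter_upwards [h1, hπs] with x hx1 hx2
  rw [← hx1, hx2]

variable (hloc : IsLocalDiffeomorph 𝓘(ℂ, Cm n) 𝓘(ℂ, Cm n) ω π)
    (hs : ContinuousAt s y) (hπs : ∀ᶠ x in 𝓝 y, π (s x) = x) (he : At e y)

include hloc hs hπs he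

lemma lift_eventuallyEq (u : M → ℝ) : (fun z => u (s (e.symm z))) =ᶠ[𝓝 (e y)]
    fun z => (fun z' => u ((chartAt (Cm n) (s y)).symm z'))
      ((fun z => chartAt (Cm n) (s y) (s (e.symm z))) z) := by
  have hc : At (chartAt (Cm n) (s y)) (s y) := H956.at_chartAt (s y)
  filter_upwards [H956.nhds_at_map hs he hc] with z hz
  show _ = u ((chartAt (Cm n) (s y)).symm (chartAt (Cm n) (s y) (s (e.symm z))))
  rw [hz.2.2.left_inv]

lemma lift_contDiffAt {r : WithTop ℕ∞} (hr : r ≤ ∞)
    (hu : ContDiffAt ℝ r (fun z => u ((chartAt (Cm n) (s y)).symm z)) (chartAt (Cm n) (s y) (s y))) :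
    ContDiffAt ℝ r (fun z => u (s (e.symm z))) (e y) := by
  have hc : At (chartAt (Cm n) (s y)) (s y) := H956.at_chartAt (s y)
  have hτ := rep_hol (section_hol hloc hs hπs) he hc
  refine ContDiffAt.congr_of_eventuallyEq ?_ (lift_eventuallyEq hloc hs hπs he u)
  refine ContDiffAt.comp (e y) (g := fun z' => u ((chartAt (Cm n) (s y)).symm z'))
    (f := fun z => chartAt (Cm n) (s y) (s (e.symm z))) ?_
    ((hτ.restrict_scalars ℝ).of_le (by exact le_top))
  rw [he.left_inv]; exact hu

/-- the metric of the base in terms of the metric of the covering -/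
lemma lift_metric (hw : IsForm w) :
    w e (e y) = (jmR (fun z => chartAt (Cm n) (s y) (s (e.symm z))) (e y)).transpose *
      pullM π w (chartAt (Cm n) (s y)) (chartAt (Cm n) (s y) (s y)) *
      (jmR (fun z => chartAt (Cm n) (s y) (s (e.symm z))) (e y)).map (starRingEnd ℂ) := by
  have hc : At (chartAt (Cm n) (s y)) (s y) := H956.at_chartAt (s y)
  set c := chartAt (Cm n) (s y)
  have hsy := section_hol hloc hs hπs
  have hy : π (s y) = y := hπs.self_of_nhds
  have he' : At e (π (s y)) := by rw [hy]; exact he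
  have hπm : ContMDiffAt 𝓘(ℂ, Cm n) 𝓘(ℂ, Cm n) ω π (s y) := hloc.contMDiff.contMDiffAt
  have h1 := pullM_eq hw hπm hc he'
  have h2 := jacF_comp hsy hπm he hc he'
  have h3 : jacF (fun x => π (s x)) e e y = 1 := by
    rw [jacF_congr (f₁ := fun x => x) he hπs, jacF_id, jacM_self he]
  rw [h3] at h2
  have hJ : jmR (fun z => c (s (e.symm z))) (e y) = jacF s e c y := rfl
  rw [h1, hJ, hy]
  have h4 : (jacF s e c y).transpose * (jacF π c e (s y)).transpose = 1 := by
    rw [← Matrix.transpose_mul, ← h2, Matrix.transpose_one]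
  have h5 : (jacF π c e (s y)).map (starRingEnd ℂ) * (jacF s e c y).map (starRingEnd ℂ) = 1 := by
    rw [← H956.mcj_rect_mul, ← h2]
    simp
  calc w e (e y) = ((jacF s e c y).transpose * (jacF π c e (s y)).transpose) * w e (e y) *
        ((jacF π c e (s y)).map (starRingEnd ℂ) * (jacF s e c y).map (starRingEnd ℂ)) := by
        rw [h4, h5, Matrix.one_mul, Matrix.mul_one]
    _ = _ := by simp only [Matrix.mul_assoc]

lemma lift_isUnit : IsUnit (jmR (fun z => chartAt (Cm n) (s y) (s (e.symm z))) (e y)).det := by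
  have hc : At (chartAt (Cm n) (s y)) (s y) := H956.at_chartAt (s y)
  set c := chartAt (Cm n) (s y)
  have hsy := section_hol hloc hs hπs
  have hy : π (s y) = y := hπs.self_of_nhds
  have he' : At e (π (s y)) := by rw [hy]; exact he
  have hπm : ContMDiffAt 𝓘(ℂ, Cm n) 𝓘(ℂ, Cm n) ω π (s y) := hloc.contMDiff.contMDiffAt
  have h2 := jacF_comp hsy hπm he hc he'
  have h3 : jacF (fun x => π (s x)) e e y = 1 := by
    rw [jacF_congr (f₁ := fun x => x) he hπs, jacF_id, jacM_self he]
  rw [h3] at h2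
  have h4 := congrArg Matrix.det h2
  rw [Matrix.det_one, Matrix.det_mul] at h4
  exact IsUnit.of_mul_eq_one_right _ h4.symm

theorem lapG_lift (hw : IsForm w)
    (hu : ContDiffAt ℝ 2 (fun z => u ((chartAt (Cm n) (s y)).symm z)) (chartAt (Cm n) (s y) (s y))) :
    lapG (w e) (fun z => u (s (e.symm z))) (e y) = lapX (n := n) (pullM π w) u (s y) := by
  have hc : At (chartAt (Cm n) (s y)) (s y) := H956.at_chartAt (s y)
  have hτ := rep_hol (section_hol hloc hs hπs) he hc
  have hm := lift_metric hloc hs hπs he hw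
  have hunit := lift_isUnit hloc hs hπs he
  have hH : cHess (fun z => u (s (e.symm z))) (e y) =
      (jmR (fun z => chartAt (Cm n) (s y) (s (e.symm z))) (e y)).transpose *
      cHess (fun z => u ((chartAt (Cm n) (s y)).symm z)) (chartAt (Cm n) (s y) (s y)) *
      (jmR (fun z => chartAt (Cm n) (s y) (s (e.symm z))) (e y)).map (starRingEnd ℂ) := by
    rw [cHess_congr (lift_eventuallyEq hloc hs hπs he u)]
    have h1 := cHess_compR (f := fun z => u ((chartAt (Cm n) (s y)).symm z))
      (τ := fun z => chartAt (Cm n) (s y) (s (e.symm z))) (z := e y)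
      (by simp only [he.left_inv]; exact hu) hτ
    simp only [he.left_inv] at h1
    exact h1
  unfold lapG lapX atX lapE hess
  rw [hH, hm, trace_form hunit]

theorem gradG_lift (hw : IsForm w)
    (hu : DifferentiableAt ℝ (fun z => u ((chartAt (Cm n) (s y)).symm z)) (chartAt (Cm n) (s y) (s y)))
    (hv : DifferentiableAt ℝ (fun z => v ((chartAt (Cm n) (s y)).symm z)) (chartAt (Cm n) (s y) (s y))) :
    gradG (w e) (fun z => u (s (e.symm z))) (fun z => v (s (e.symm z))) (e y) =
      gradX (n := n) (pullM π w) u v (s y) := by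
  have hc : At (chartAt (Cm n) (s y)) (s y) := H956.at_chartAt (s y)
  have hτ := rep_hol (section_hol hloc hs hπs) he hc
  have hm := lift_metric hloc hs hπs he hw
  have hunit := lift_isUnit hloc hs hπs he
  have hdd : ddG (fun z => u (s (e.symm z))) (fun z => v (s (e.symm z))) (e y) =
      (jmR (fun z => chartAt (Cm n) (s y) (s (e.symm z))) (e y)).transpose *
      dd u v (chartAt (Cm n) (s y)) (chartAt (Cm n) (s y) (s y)) *
      (jmR (fun z => chartAt (Cm n) (s y) (s (e.symm z))) (e y)).map (starRingEnd ℂ) := by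
    have hd : ∀ {u : M → ℝ}, DifferentiableAt ℝ (fun z => u ((chartAt (Cm n) (s y)).symm z))
        (chartAt (Cm n) (s y) (s y)) → DifferentiableAt ℝ
        (fun z => ((u ((chartAt (Cm n) (s y)).symm z) : ℝ) : ℂ))
        ((fun z => chartAt (Cm n) (s y) (s (e.symm z))) (e y)) := by
      intro u hu
      simp only [he.left_inv]
      exact ofReal_diff hu
    have hev : ∀ u : M → ℝ, (fun z => ((u (s (e.symm z)) : ℝ) : ℂ)) =ᶠ[𝓝 (e y)]
        fun z => (fun z' => ((u ((chartAt (Cm n) (s y)).symm z') : ℝ) : ℂ))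
          ((fun z => chartAt (Cm n) (s y) (s (e.symm z))) z) := fun u => by
      filter_upwards [lift_eventuallyEq hloc hs hπs he u] with z hz
      rw [hz]
    have hτd : DifferentiableAt ℂ (fun z => chartAt (Cm n) (s y) (s (e.symm z))) (e y) :=
      hτ.differentiableAt (by simp)
    ext i j
    simp only [ddG, dd, Matrix.of_apply]
    rw [dz_congr (hev u), dzb_congr (hev v),
      dz_compR (f := fun z' => ((u ((chartAt (Cm n) (s y)).symm z') : ℝ) : ℂ)) (hd hu) hτd,
      dzb_compR (f := fun z' => ((v ((chartAt (Cm n) (s y)).symm z') : ℝ) : ℂ)) (hd hv) hτd]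
    simp only [he.left_inv, Matrix.mul_apply, Matrix.transpose_apply, Matrix.map_apply,
      Matrix.of_apply, Finset.sum_mul, Finset.mul_sum]
    refine (Finset.sum_congr rfl fun p _ => Finset.sum_congr rfl fun q _ => ?_)
    simp only [cj]
    ring
  unfold gradG gradX atX gradE
  rw [hdd, hm, trace_form hunit]

end

end Vale.Agent.P299.H266
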