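import Vale.Agent.P299.H266.GradLocal
import Vale.Agent.P299.H266.Sect

/-!
# P299, D2-GRAD: global gradient estimate on a covering of a compact Kähler manifold
-/

open scoped Manifold ContDiff ComplexOrder Topology
open Vale.Agent.P272.K Vale.Agent.P272.K.AMP Vale.Agent.P299.D Metric Filter Set

set_option linter.all false

noncomputable section

namespace Vale.Agent.P299.H266

open Vale.Agent.P299.D2

section
variable {n : ℕ} {X : Type*} [TopologicalSpace X] [ChartedSpace (Cm n) X] {w : FormM n X}
  {e : Chart n X} {K : Set (Cm n)}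

lemma kahOn_of (hw : IsKahler w) (he : e ∈ atlas (Cm n) X) (hK : K ⊆ e.target) :
    KahOn (w e) K where
  smooth z hz i j := by
    have := hw.smooth e (e.symm z) (At.of_target he (hK hz)) i j
    rwa [e.right_inv (hK hz)] at this
  posDef z hz := by
    have := hw.posDef e (e.symm z) (At.of_target he (hK hz))
    rwa [e.right_inv (hK hz)] at this
  closed z hz i j k := by
    have := hw.closed e (e.symm z) (At.of_target he (hK hz)) i j k
    rwa [e.right_inv (hK hz)] at this

lemma ricOn_of (hw : RicNonneg w) (he : e ∈ atlas (Cm n) X) (hK : K ⊆ e.target) :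
    RicOn (w e) K := fun z hz => by
  have := hw e (e.symm z) (At.of_target he (hK hz))
  rw [e.right_inv (hK hz)] at this
  exact this

end

theorem gradStatement (hB : BochnerStatement) : GradStatement := by
  intro n X _ _ _ _ _ _ w hw hRic M _ _ _ _ _ _ π hπ hsurj hloc μ hμ
  -- a neighbourhood and a constant for every point of `X`
  have key : ∀ x : X, ∃ V : Set X, IsOpen V ∧ x ∈ V ∧ ∃ C : ℝ, 0 ≤ C ∧
      ∀ u : M → ℝ, SmoothFn (n := n) u → (∀ m, 0 < u m) →
      (∀ m, lapX (n := n) (pullM π w) u m = μ * u m) → ∀ m, π m ∈ V →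
      gradX (n := n) (pullM π w) (fun x => Real.log (u x)) (fun x => Real.log (u x)) m ≤ C := by
    intro x
    obtain ⟨U, hU, hxU, hsec⟩ := exists_section hπ x
    set e : Chart n X := chartAt (Cm n) x with he
    have hAt : At e x := H956.at_chartAt x
    have hnhds : e.target ∩ e.symm ⁻¹' U ∈ 𝓝 (e x) := by
      refine inter_mem (e.open_target.mem_nhds hAt.mem_target) ?_
      have h1 := e.continuousAt_symm hAt.mem_target
      refine h1.preimage_mem_nhds ?_
      rw [hAt.left_inv]
      exact hU.mem_nhds hxU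
    obtain ⟨R, hR, hRsub⟩ := Metric.nhds_basis_closedBall.mem_iff.1 hnhds
    have hRt : closedBall (e x) R ⊆ e.target := fun z hz => (hRsub hz).1
    obtain ⟨C, hC0, hC⟩ := local_bound hB hR (kahOn_of hw hAt.1 hRt) (ricOn_of hRic hAt.1 hRt) μ
    refine ⟨e.source ∩ e ⁻¹' (ball (e x) (R / 2)), e.isOpen_inter_preimage isOpen_ball,
      ⟨hAt.2, mem_ball_self (by positivity)⟩, C, hC0, fun u hu hpos heq m hm => ?_⟩
    have hmb : e (π m) ∈ ball (e x) (R / 2) := hm.2
    have hmR : e (π m) ∈ closedBall (e x) R :=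
      closedBall_subset_closedBall (by linarith) (ball_subset_closedBall hmb)
    have hmU : π m ∈ U := by
      have := (hRsub hmR).2
      rwa [mem_preimage, e.left_inv hm.1] at this
    obtain ⟨s, hsc, hsπ, hsm⟩ := hsec m hmU
    -- facts at the points of the ball
    have hpt : ∀ z ∈ closedBall (e x) R, At e (e.symm z) ∧ ContinuousAt s (e.symm z) ∧
        (∀ᶠ y in 𝓝 (e.symm z), π (s y) = y) ∧ e (e.symm z) = z := fun z hz => by
      have h1 := hRsub hz
      refine ⟨At.of_target hAt.1 h1.1, hsc.continuousAt (hU.mem_nhds h1.2), ?_, e.right_inv h1.1⟩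
      filter_upwards [hU.mem_nhds h1.2] with y hy using hsπ y hy
    have hu' : ∀ m' : M, ContDiffAt ℝ ∞ (fun z => u ((chartAt (Cm n) m').symm z))
        (chartAt (Cm n) m' m') := fun m' => hu _ _ (H956.at_chartAt m')
    have hlog : SmoothFn (n := n) (fun m => Real.log (u m)) := sm_log hu hpos
    have h1 := hC (fun z => u (s (e.symm z)))
      (fun z hz => by
        obtain ⟨k1, k2, k3, k4⟩ := hpt z (ball_subset_closedBall hz)
        have := lift_contDiffAt hloc k2 k3 k1 (u := u) (r := ∞) le_rfl (hu' _)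
        rwa [k4] at this)
      (fun z hz => hpos _)
      (fun z hz => by
        obtain ⟨k1, k2, k3, k4⟩ := hpt z (ball_subset_closedBall hz)
        have := lapG_lift hloc k2 k3 k1 hw.isForm (u := u) ((hu' _).of_le (by norm_cast))
        rw [k4] at this
        rw [this, heq])
      (e (π m)) (ball_subset_closedBall hmb)
    obtain ⟨k1, k2, k3, k4⟩ := hpt (e (π m)) hmR
    rw [e.left_inv hm.1] at k1 k2 k3
    have hd : DifferentiableAt ℝ (fun z => Real.log (u ((chartAt (Cm n) (s (π m))).symm z)))
        (chartAt (Cm n) (s (π m)) (s (π m))) :=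
      (hlog _ _ (H956.at_chartAt (s (π m)))).differentiableAt (by simp)
    have h2 := gradG_lift hloc k2 k3 k1 hw.isForm (u := fun m => Real.log (u m))
      (v := fun m => Real.log (u m)) hd hd
    rw [hsm] at h2
    rw [← h2]
    exact h1
  choose V hVo hxV C hC0 hC using key
  obtain ⟨t, ht⟩ := isCompact_univ.elim_finite_subcover V hVo
    (fun x _ => mem_iUnion.2 ⟨x, hxV x⟩)
  refine ⟨∑ x ∈ t, C x, fun u hu hpos heq m => ?_⟩
  obtain ⟨x, hx⟩ := mem_iUnion.1 (ht (mem_univ (π m)))
  obtain ⟨hxt, hmx⟩ := mem_iUnion.1 hx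
  exact (hC x u hu hpos heq m hmx).trans (Finset.single_le_sum (fun i _ => hC0 i) hxt)

end Vale.Agent.P299.H266
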