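import Vale.Agent.P299.H723.D2.Iface
import Vale.Agent.P272.K.AMP.Calc
import Vale.Agent.P272.K.AMP.NF.H420.Grad
import Mathlib.Analysis.Calculus.BumpFunction.FiniteDimension

/-!
# P299, D2-GRAD: local gradient estimate (Cheng–Yau) for positive solutions of `Δ_g u = μ u`

Maximum principle for `η |∂ log u|²`, `η` the square of a bump function.
-/

open scoped Manifold ContDiff ComplexOrder Topology
open Vale.Agent.P272.K Vale.Agent.P272.K.AMP Metric Filter Set

set_option linter.all false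

noncomputable section

namespace Vale.Agent.P299.H266

open Vale.Agent.P299.D2

variable {n : ℕ} {g : Cm n → Matrix (Fin n) (Fin n) ℂ} {z : Cm n} {f h k : Cm n → ℝ}

lemma gradG_nonneg (hg : (g z).PosDef) (f : Cm n → ℝ) : 0 ≤ gradG g f f z := trace_gm_nonneg hg f z

lemma gradG_comm (hg : (g z).PosDef) (f h : Cm n → ℝ) : gradG g f h z = gradG g h f z :=
  trace_gm_comm hg f h z

lemma gradG_eq_qf (f h : Cm n → ℝ) : gradG g f h z =
    (C3.qf (g z)⁻¹ (fun i => dz i (fun y => ((f y : ℝ) : ℂ)) z)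
      (fun i => dz i (fun y => ((h y : ℝ) : ℂ)) z)).re := by
  unfold gradG
  rw [C3.trace_eq_sum]
  unfold C3.qf ddG
  congr 1
  refine Finset.sum_congr rfl fun i _ => Finset.sum_congr rfl fun j _ => ?_
  simp only [Matrix.of_apply]
  rw [dzb_real_eq h z j]
  simp only [cj]
  ring

lemma gradG_sq_le (hg : (g z).PosDef) (f h : Cm n → ℝ) :
    gradG g f h z ^ 2 ≤ gradG g f f z * gradG g h h z := by
  rw [gradG_eq_qf, gradG_eq_qf, gradG_eq_qf]
  exact C3.qf_cs hg.inv.posSemidef _ _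

lemma gradG_mul_left (hf : DifferentiableAt ℝ f z) (hh : DifferentiableAt ℝ h z) (k : Cm n → ℝ) :
    gradG g (fun y => f y * h y) k z = f z * gradG g h k z + h z * gradG g f k z := by
  have h1 : ddG (fun y => f y * h y) k z = ((f z : ℝ) : ℂ) • ddG h k z + ((h z : ℝ) : ℂ) • ddG f k z := by
    ext i j
    simp only [ddG, Matrix.of_apply, Matrix.add_apply, Matrix.smul_apply, smul_eq_mul]
    rw [dz_real_mul hf hh]
    ring
  unfold gradG
  rw [h1, tr_add, tr_smul, tr_smul]

lemma lapG_mul (hg : (g z).PosDef) (hf : ContDiffAt ℝ 2 f z) (hh : ContDiffAt ℝ 2 h z) :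
    lapG g (fun y => f y * h y) z =
      f z * lapG g h z + h z * lapG g f z + 2 * gradG g f h z := by
  unfold lapG
  rw [cHess_mul hf hh, tr_add, tr_add, tr_add, tr_smul, tr_smul]
  have h1 : ((g z)⁻¹ * gm f h z).trace.re = gradG g f h z := rfl
  have h2 : ((g z)⁻¹ * gm h f z).trace.re = gradG g h f z := rfl
  rw [h1, h2, gradG_comm hg h f]
  ring

lemma gradG_zero_of_max (h : IsLocalMax f z) (k : Cm n → ℝ) : gradG g f k z = 0 := by
  have h1 : gm f k z = 0 := gm_zero_left k h.fderiv_eq_zero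
  have h2 : gradG g f k z = ((g z)⁻¹ * gm f k z).trace.re := rfl
  rw [h2, h1]
  simp

lemma lapG_nonpos_of_max (hg : (g z).PosDef) (hf : ContDiffAt ℝ 2 f z) (h : IsLocalMax f z) :
    lapG g f z ≤ 0 := by
  have h1 := N.neg_cHess_posSemidef hf h
  have h2 := (Complex.le_def.1 (C2.trace_mul_nonneg hg.inv.posSemidef h1)).1
  rw [Matrix.mul_neg, Matrix.trace_neg, Complex.neg_re] at h2
  unfold lapG
  simpa using h2

/-- smoothness of traces -/
lemma contDiffAt_trG {b : Cm n → Matrix (Fin n) (Fin n) ℂ} {m : WithTop ℕ∞}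
    (hg : ∀ i j, ContDiffAt ℝ m (fun y => g y i j) z) (h0 : (g z).det ≠ 0)
    (hb : ∀ i j, ContDiffAt ℝ m (fun y => b y i j) z) :
    ContDiffAt ℝ m (fun y => ((g y)⁻¹ * b y).trace.re) z := by
  have hgi : ∀ i j, ContDiffAt ℝ m (fun y => (g y)⁻¹ i j) z := fun i j => contDiffAt_inv hg h0 i j
  have h1 : ContDiffAt ℝ m (fun y => ((g y)⁻¹ * b y).trace) z := by
    simp only [Matrix.trace, Matrix.diag_apply, Matrix.mul_apply]
    exact ContDiffAt.sum fun i _ => ContDiffAt.sum fun j _ => (hgi i j).mul (hb j i)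
  exact (Complex.reCLM.contDiff.contDiffAt).comp z h1

lemma contDiffAt_gradG (hg : ∀ i j, ContDiffAt ℝ ∞ (fun y => g y i j) z) (h0 : (g z).det ≠ 0)
    (hf : ContDiffAt ℝ ∞ f z) (hh : ContDiffAt ℝ ∞ h z) : ContDiffAt ℝ ∞ (gradG g f h) z := by
  refine contDiffAt_trG hg h0 fun i j => ?_
  simp only [ddG, Matrix.of_apply]
  exact (contDiffAt_dz (m := ∞) (ofReal_contDiffAt hf) (le_of_eq rfl)).mul
    (contDiffAt_dzb (m := ∞) (ofReal_contDiffAt hh) (le_of_eq rfl))

lemma contDiffAt_lapG (hg : ∀ i j, ContDiffAt ℝ ∞ (fun y => g y i j) z) (h0 : (g z).det ≠ 0)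
    (hf : ContDiffAt ℝ ∞ f z) : ContDiffAt ℝ ∞ (lapG g f) z :=
  contDiffAt_trG hg h0 fun i j => contDiffAt_cHess hf (le_of_eq rfl) i j

/-- the algebra of the maximum principle -/
lemma bound_alg {N μ A h q LQ L a b c d : ℝ} (hN : 0 ≤ N) (hA : 0 ≤ A) (h0 : 0 < h) (h1 : h ≤ 1)
    (hq : 0 ≤ q) (e1 : h * a + q * b = 0) (e2 : h * d + q * c = 0)
    (e3 : h * LQ + q * L + 2 * d ≤ 0) (e4 : (μ - q) ^ 2 ≤ N * (LQ + 2 * a)) (e5 : b ^ 2 ≤ q * c)
    (e6 : c ≤ A * h) (e7 : |L| ≤ A) :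
    h * q ≤ 2 * |μ| + 24 * N * A + 64 * N ^ 2 * A := by
  by_contra hcon
  push Not at hcon
  set F := h * q with hF
  have hNA : 0 ≤ N * A := mul_nonneg hN hA
  have hN2A : 0 ≤ N ^ 2 * A := mul_nonneg (sq_nonneg _) hA
  have hF0 : 0 < F := by
    have := abs_nonneg μ
    linarith
  -- `b² ≤ A F`
  have hb : b ^ 2 ≤ A * F := by
    calc b ^ 2 ≤ q * c := e5
      _ ≤ q * (A * h) := mul_le_mul_of_nonneg_left e6 hq
      _ = A * F := by rw [hF]; ring
  -- multiply by `h²`
  have k1 : h ^ 2 * (μ - q) ^ 2 ≤ N * (-(F * L) + 2 * (q * c) - 2 * (F * b)) := by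
    have s1 : h ^ 2 * (μ - q) ^ 2 ≤ h ^ 2 * (N * (LQ + 2 * a)) :=
      mul_le_mul_of_nonneg_left e4 (sq_nonneg h)
    have s2 : h ^ 2 * (N * (LQ + 2 * a)) = N * (h * (h * LQ) + 2 * (h * (h * a))) := by ring
    have s3 : h * (h * LQ) ≤ h * (-(q * L) - 2 * d) :=
      mul_le_mul_of_nonneg_left (by linarith) h0.le
    have s4 : h * a = -(q * b) := by linarith
    have s5 : h * d = -(q * c) := by linarith
    have s6 : h * (-(q * L) - 2 * d) = -(F * L) + 2 * (q * c) := by
      have : h * (-(q * L) - 2 * d) = -(h * q * L) - 2 * (h * d) := by ring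
      rw [this, s5, ← hF]; ring
    have s7 : h * (h * a) = -(F * b) := by rw [s4, hF]; ring
    have s8 : h * (h * LQ) + 2 * (h * (h * a)) ≤ -(F * L) + 2 * (q * c) - 2 * (F * b) := by
      rw [s7]; linarith
    calc h ^ 2 * (μ - q) ^ 2 ≤ N * (h * (h * LQ) + 2 * (h * (h * a))) := by rw [← s2]; exact s1
      _ ≤ _ := mul_le_mul_of_nonneg_left s8 hN
  have hL := abs_le.1 e7
  have k2 : -(F * L) ≤ A * F := by nlinarith
  have k3 : q * c ≤ A * F := by
    calc q * c ≤ q * (A * h) := mul_le_mul_of_nonneg_left e6 hq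
      _ = A * F := by rw [hF]; ring
  -- `N * (-2 F b) ≤ F²/8 + 8 N² A F`
  have k4 : N * (-(2 * (F * b))) ≤ F ^ 2 / 8 + 8 * N ^ 2 * A * F := by
    have t1 : 0 ≤ (F / 8 + N * b) ^ 2 := sq_nonneg _
    -- `-2 N b * F ≤ F²/8 + 8 N² b²`
    have t2 : 8 * N ^ 2 * b ^ 2 ≤ 8 * N ^ 2 * (A * F) :=
      mul_le_mul_of_nonneg_left hb (by positivity)
    nlinarith
  have k5 : h ^ 2 * (μ - q) ^ 2 = (h * μ - F) ^ 2 := by rw [hF]; ring
  -- `F/2 ≤ F - h μ`
  have k6 : F / 2 ≤ F - h * μ := by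
    have : h * μ ≤ |μ| := by
      calc h * μ ≤ h * |μ| := mul_le_mul_of_nonneg_left (le_abs_self μ) h0.le
        _ ≤ 1 * |μ| := mul_le_mul_of_nonneg_right h1 (abs_nonneg _)
        _ = |μ| := one_mul _
    nlinarith
  have k7 : F ^ 2 / 4 ≤ (h * μ - F) ^ 2 := by nlinarith
  have k8 : F ^ 2 / 4 ≤ 3 * (N * A) * F + (F ^ 2 / 8 + 8 * N ^ 2 * A * F) := by
    have : N * (-(F * L) + 2 * (q * c) - 2 * (F * b)) =
        N * (-(F * L) + 2 * (q * c)) + N * (-(2 * (F * b))) := by ring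
    have t3 : N * (-(F * L) + 2 * (q * c)) ≤ N * (3 * (A * F)) :=
      mul_le_mul_of_nonneg_left (by linarith) hN
    have t4 : N * (3 * (A * F)) = 3 * (N * A) * F := by ring
    linarith
  have k9 : F * F ≤ (24 * N * A + 64 * N ^ 2 * A) * F := by nlinarith
  have k10 : F ≤ 24 * N * A + 64 * N ^ 2 * A := le_of_mul_le_mul_right k9 hF0
  have := abs_nonneg μ
  linarith

theorem local_bound (hB : BochnerStatement) {g : Cm n → Matrix (Fin n) (Fin n) ℂ} {p : Cm n} {R : ℝ}
    (hR : 0 < R) (hK : KahOn g (closedBall p R)) (hRic : RicOn g (closedBall p R)) (μ : ℝ) :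
    ∃ K : ℝ, 0 ≤ K ∧ ∀ u : Cm n → ℝ,
      (∀ z ∈ ball p R, ContDiffAt ℝ ∞ u z) → (∀ z ∈ ball p R, 0 < u z) →
      (∀ z ∈ ball p R, lapG g u z = μ * u z) →
      ∀ z ∈ closedBall p (R / 2), gradG g (fun y => Real.log (u y)) (fun y => Real.log (u y)) z ≤ K := by
  -- the cut-off
  let χ : ContDiffBump p := ⟨R / 2, 3 * R / 4, by positivity, by linarith⟩
  have hχ : ContDiff ℝ ∞ (χ : Cm n → ℝ) := χ.contDiff
  have hcomp : IsCompact (closedBall p R) := isCompact_closedBall p R
  have hdet : ∀ z ∈ closedBall p R, (g z).det ≠ 0 := fun z hz => (hK.posDef z hz).det_pos.ne'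
  have hη : ContDiff ℝ ∞ (fun z => (χ z) * (χ z) : Cm n → ℝ) := hχ.mul hχ
  obtain ⟨A₁, hA₁⟩ := hcomp.exists_bound_of_continuousOn (f := gradG g (χ : Cm n → ℝ) (χ : Cm n → ℝ))
    fun z hz => (contDiffAt_gradG (fun i j => hK.smooth z hz i j) (hdet z hz) hχ.contDiffAt
      hχ.contDiffAt).continuousAt.continuousWithinAt
  obtain ⟨A₂, hA₂⟩ := hcomp.exists_bound_of_continuousOn
    (f := lapG g (fun z => (χ z) * (χ z)))
    fun z hz => (contDiffAt_lapG (fun i j => hK.smooth z hz i j) (hdet z hz)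
      hη.contDiffAt).continuousAt.continuousWithinAt
  set A : ℝ := max (4 * A₁) A₂ with hA
  have hp : p ∈ closedBall p R := mem_closedBall_self hR.le
  have hA0 : 0 ≤ A := by
    have := (norm_nonneg _).trans (hA₂ p hp)
    exact this.trans (le_max_right _ _)
  refine ⟨2 * |μ| + 24 * n * A + 64 * (n : ℝ) ^ 2 * A, by positivity, fun u hu hpos heq => ?_⟩
  obtain ⟨b1, b2, b3, b4, b5⟩ := hB n g (ball p R) isOpen_ball
    ⟨fun z hz => hK.smooth z (ball_subset_closedBall hz),
      fun z hz => hK.posDef z (ball_subset_closedBall hz),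
      fun z hz => hK.closed z (ball_subset_closedBall hz)⟩
    (fun z hz => hRic z (ball_subset_closedBall hz)) μ u hu hpos heq
  set v : Cm n → ℝ := fun z => Real.log (u z) with hv
  set Q : Cm n → ℝ := gradG g v v with hQ
  set η : Cm n → ℝ := fun z => (χ z) * (χ z) with hηd
  have hη0 : ∀ z, 0 ≤ η z := fun z => mul_self_nonneg _
  have hη1 : ∀ z, η z ≤ 1 := fun z => by
    have h1 := χ.le_one (x := z)
    have h2 := χ.nonneg (x := z)
    show χ z * χ z ≤ 1
    nlinarith
  -- `η` vanishes outside of the ball of radius `3R/4`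
  have hηs : ∀ z, z ∉ ball p (3 * R / 4) → η z = 0 := fun z hz => by
    have h1 : (χ : Cm n → ℝ) z = 0 := by
      have : z ∉ Function.support (χ : Cm n → ℝ) := by
        rw [χ.support_eq]; exact hz
      simpa using this
    show χ z * χ z = 0
    rw [h1, mul_zero]
  have hsub : closedBall p (3 * R / 4) ⊆ ball p R := closedBall_subset_ball (by linarith)
  set F : Cm n → ℝ := fun z => η z * Q z with hF
  have hFc : ContinuousOn F (closedBall p (3 * R / 4)) := fun z hz =>
    (hη.continuous.continuousAt.mul (b1 z (hsub hz)).continuousAt).continuousWithinAt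
  obtain ⟨z0, hz0, hmax⟩ := (isCompact_closedBall p (3 * R / 4)).exists_isMaxOn
    ⟨p, mem_closedBall_self (by linarith)⟩ hFc
  have hz0' : z0 ∈ ball p R := hsub hz0
  have key : F z0 ≤ 2 * |μ| + 24 * n * A + 64 * (n : ℝ) ^ 2 * A := by
    rcases le_or_gt (F z0) 0 with h | h
    · exact h.trans (by positivity)
    have hηz : 0 < η z0 := by
      by_contra hc
      have : η z0 = 0 := le_antisymm (not_lt.1 hc) (hη0 z0)
      have h3 : F z0 = 0 := by show η z0 * Q z0 = 0; rw [this, zero_mul]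
      linarith
    have hzb : z0 ∈ ball p (3 * R / 4) := by
      by_contra hc
      exact hηz.ne' (hηs z0 hc)
    have hloc : IsLocalMax F z0 := by
      filter_upwards [isOpen_ball.mem_nhds hzb] with y hy
      exact hmax (ball_subset_closedBall hy)
    have hg0 : (g z0).PosDef := hK.posDef z0 (ball_subset_closedBall hz0')
    have hQ2 : ContDiffAt ℝ 2 Q z0 := (b1 z0 hz0').of_le (by norm_cast)
    have hη2 : ContDiffAt ℝ 2 η z0 := (hη.contDiffAt).of_le (by norm_cast)
    have hQd : DifferentiableAt ℝ Q z0 := (b1 z0 hz0').differentiableAt (by simp)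
    have hηd' : DifferentiableAt ℝ η z0 := (hη.contDiffAt).differentiableAt (by simp)
    have e1 : η z0 * gradG g v Q z0 + Q z0 * gradG g v η z0 = 0 := by
      have := gradG_zero_of_max (g := g) hloc v
      rw [hF, gradG_mul_left hηd' hQd, gradG_comm hg0 Q v, gradG_comm hg0 η v] at this
      exact this
    have e2 : η z0 * gradG g η Q z0 + Q z0 * gradG g η η z0 = 0 := by
      have := gradG_zero_of_max (g := g) hloc η
      rw [hF, gradG_mul_left hηd' hQd, gradG_comm hg0 Q η] at this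
      exact this
    have e3 : η z0 * lapG g Q z0 + Q z0 * lapG g η z0 + 2 * gradG g η Q z0 ≤ 0 := by
      have h1 : ContDiffAt ℝ 2 F z0 := hη2.mul hQ2
      have := lapG_nonpos_of_max hg0 h1 hloc
      rw [hF, lapG_mul hg0 hη2 hQ2] at this
      exact this
    have e4 := b4 z0 hz0'
    have e5 : gradG g v η z0 ^ 2 ≤ Q z0 * gradG g η η z0 := gradG_sq_le hg0 v η
    have hz0c : z0 ∈ closedBall p R := ball_subset_closedBall hz0'
    have e6 : gradG g η η z0 ≤ A * η z0 := by
      have hχd : DifferentiableAt ℝ (χ : Cm n → ℝ) z0 := hχ.contDiffAt.differentiableAt (by simp)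
      have h1 : gradG g η η z0 = 4 * (η z0 * gradG g (χ : Cm n → ℝ) (χ : Cm n → ℝ) z0) := by
        rw [hηd, gradG_mul_left hχd hχd]
        rw [gradG_comm hg0 (χ : Cm n → ℝ) (fun z => χ z * χ z), gradG_mul_left hχd hχd]
        ring
      have h2 := hA₁ z0 hz0c
      rw [Real.norm_eq_abs] at h2
      have h3 : 4 * gradG g (χ : Cm n → ℝ) (χ : Cm n → ℝ) z0 ≤ A := by
        have := le_abs_self (gradG g (χ : Cm n → ℝ) (χ : Cm n → ℝ) z0)
        have := le_max_left (4 * A₁) A₂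
        linarith
      rw [h1]
      have := mul_le_mul_of_nonneg_right h3 hηz.le
      linarith
    have e7 : |lapG g η z0| ≤ A := by
      have := hA₂ z0 hz0c
      rw [Real.norm_eq_abs] at this
      exact this.trans (le_max_right _ _)
    exact bound_alg (Nat.cast_nonneg n) hA0 hηz (hη1 z0) (b2 z0 hz0') e1 e2 e3 e4 e5 e6 e7
  intro z hz
  have hz1 : (χ : Cm n → ℝ) z = 1 := χ.one_of_mem_closedBall hz
  have hz2 : z ∈ closedBall p (3 * R / 4) := closedBall_subset_closedBall (by linarith) hz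
  have h1 := hmax hz2
  have h2 : F z = Q z := by
    show χ z * χ z * Q z = Q z
    rw [hz1]; ring
  rw [mem_setOf_eq, h2] at h1
  exact h1.trans key

/-- `quad G v ≤ n² B ‖v‖²` -/
lemma quad_le {G : Matrix (Fin n) (Fin n) ℂ} {B : ℝ} (hG : ∀ i j, ‖G i j‖ ≤ B) (v : Cm n) :
    (quad G v).re ≤ (n : ℝ) ^ 2 * B * ‖v‖ ^ 2 := by
  refine (Complex.re_le_norm _).trans ?_
  unfold quad
  calc ‖∑ i, ∑ j, G i j * (v i * cj (v j))‖ ≤ ∑ i : Fin n, ∑ j : Fin n, B * ‖v‖ ^ 2 := by
        refine (norm_sum_le _ _).trans (Finset.sum_le_sum fun i _ => ?_)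
        refine (norm_sum_le _ _).trans (Finset.sum_le_sum fun j _ => ?_)
        rw [norm_mul, norm_mul]
        have h1 : ‖cj (v j)‖ = ‖v j‖ := by simp [cj]
        rw [h1]
        have hB : 0 ≤ B := (norm_nonneg _).trans (hG i j)
        have hi := norm_le_pi_norm v i
        have hj := norm_le_pi_norm v j
        calc ‖G i j‖ * (‖v i‖ * ‖v j‖) ≤ B * (‖v‖ * ‖v‖) :=
              mul_le_mul (hG i j) (mul_le_mul hi hj (norm_nonneg _) (norm_nonneg _))
                (by positivity) hB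
          _ = B * ‖v‖ ^ 2 := by ring
    _ = (n : ℝ) ^ 2 * B * ‖v‖ ^ 2 := by simp; ring

theorem localGradStatement (hB : BochnerStatement) : LocalGradStatement := by
  intro n g p R hR hK hRic μ
  obtain ⟨K, hK0, hKb⟩ := local_bound hB hR hK hRic μ
  have hcomp : IsCompact (closedBall p R) := isCompact_closedBall p R
  have hB0 : ∀ i j, ∃ B, ∀ z ∈ closedBall p R, ‖g z i j‖ ≤ B := fun i j =>
    hcomp.exists_bound_of_continuousOn fun z hz =>
      (hK.smooth z hz i j).continuousAt.continuousWithinAt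
  choose Bf hBf using hB0
  set B : ℝ := ∑ i, ∑ j, |Bf i j| with hBd
  have hBle : ∀ z ∈ closedBall p R, ∀ i j, ‖g z i j‖ ≤ B := fun z hz i j => by
    refine (hBf i j z hz).trans ((le_abs_self _).trans ?_)
    refine le_trans ?_ (Finset.single_le_sum (f := fun i => ∑ j, |Bf i j|)
      (fun i _ => Finset.sum_nonneg fun j _ => abs_nonneg _) (Finset.mem_univ i))
    exact Finset.single_le_sum (f := fun j => |Bf i j|) (fun j _ => abs_nonneg _) (Finset.mem_univ j)
  have hB0 : 0 ≤ B := Finset.sum_nonneg fun i _ => Finset.sum_nonneg fun j _ => abs_nonneg _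
  refine ⟨Real.sqrt (4 * (K * ((n : ℝ) ^ 2 * B))), fun u hu hpos heq z hz => ?_⟩
  have hzb : z ∈ ball p R := closedBall_subset_ball (by linarith) hz
  have hzc : z ∈ closedBall p R := ball_subset_closedBall hzb
  have h1 := hKb u hu hpos heq z hz
  have hd : DifferentiableAt ℝ (fun y => Real.log (u y)) z :=
    ((hu z hzb).differentiableAt (by simp)).log (hpos z hzb).ne'
  refine ContinuousLinearMap.opNorm_le_bound _ (Real.sqrt_nonneg _) fun w => ?_
  have h2 := NF.H420.fderiv_sq_le (X := Cm n) (e := OpenPartialHomeomorph.refl (Cm n))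
    (g := fun _ => g) (ρ := fun y => Real.log (u y)) (z := z) (hK.posDef z hzc) hd w
  have h3 : (fderiv ℝ (fun y => Real.log (u y)) z w) ^ 2 ≤
      4 * (gradG g (fun y => Real.log (u y)) (fun y => Real.log (u y)) z * (quad (g z) w).re) := h2
  have h4 := quad_le (hBle z hzc) w
  have h5 : 0 ≤ gradG g (fun y => Real.log (u y)) (fun y => Real.log (u y)) z :=
    gradG_nonneg (hK.posDef z hzc) _
  have h6 : (fderiv ℝ (fun y => Real.log (u y)) z w) ^ 2 ≤ 4 * (K * ((n : ℝ) ^ 2 * B)) * ‖w‖ ^ 2 := by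
    refine h3.trans ?_
    have h7 : gradG g (fun y => Real.log (u y)) (fun y => Real.log (u y)) z * (quad (g z) w).re ≤
        K * ((n : ℝ) ^ 2 * B * ‖w‖ ^ 2) := by
      refine (mul_le_mul_of_nonneg_left h4 h5).trans (mul_le_mul_of_nonneg_right h1 (by positivity))
    nlinarith
  rw [Real.norm_eq_abs]
  refine abs_le_of_sq_le_sq ?_ (by positivity)
  rw [mul_pow, Real.sq_sqrt (by positivity)]
  exact h6

end Vale.Agent.P299.H266
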